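import Vale.Agent.Lib.P345.Defs

namespace Vale.Agent.Lib.P345

open MvPolynomial

/-- Single-fold Diophantine representability with an arbitrary finite type of witnesses. -/
def SF {α : Type} (S : Set (α → ℕ)) : Prop :=
  ∃ (β : Type) (_ : Fintype β) (P : MvPolynomial (α ⊕ β) ℤ),
    (∀ a : α → ℕ, a ∈ S ↔ ∃ w : β → ℕ, eval (pt a w) P = 0) ∧
    (∀ (a : α → ℕ) (w w' : β → ℕ), eval (pt a w) P = 0 → eval (pt a w') P = 0 → w = w')

theorem pt_comp_map {α β γ : Type} (a : α → ℕ) (w : γ → ℕ) (g : β → γ) :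
    (pt a w) ∘ (Sum.map id g) = pt a (w ∘ g) := by
  funext i
  cases i <;> rfl

theorem pt_comp_inl {α β : Type} (a : α → ℕ) (w : β → ℕ) :
    (pt a w) ∘ Sum.inl = fun i => (a i : ℤ) := by
  funext i
  rfl

theorem SF.hasSingleFoldRep {n : ℕ} {S : Set (Fin n → ℕ)} (h : SF S) : HasSingleFoldRep S := by
  obtain ⟨β, hβ, P, h1, h2⟩ := h
  let e : β ≃ Fin (Fintype.card β) := Fintype.equivFin β
  refine ⟨Fintype.card β, rename (Sum.map id e) P, ?_, ?_⟩
  · intro a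
    rw [h1 a]
    constructor
    · rintro ⟨w, hw⟩
      refine ⟨w ∘ e.symm, ?_⟩
      rw [eval_rename, pt_comp_map]
      have : (w ∘ e.symm) ∘ e = w := by
        funext i; simp
      rw [this]; exact hw
    · rintro ⟨w, hw⟩
      refine ⟨w ∘ e, ?_⟩
      rw [eval_rename, pt_comp_map] at hw
      exact hw
  · intro a w w' hw hw'
    rw [eval_rename, pt_comp_map] at hw hw'
    have := h2 a _ _ hw hw'
    funext i
    have h3 := congrFun this (e.symm i)
    simpa using h3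

/-- A system of finitely many polynomial equations with unique witnesses gives `SF`. -/
theorem SF.of_system {α : Type} {S : Set (α → ℕ)} (β : Type) [Fintype β] (ι : Type) [Fintype ι]
    (P : ι → MvPolynomial (α ⊕ β) ℤ)
    (h1 : ∀ a, a ∈ S ↔ ∃ w : β → ℕ, ∀ i, eval (pt a w) (P i) = 0)
    (h2 : ∀ a (w w' : β → ℕ), (∀ i, eval (pt a w) (P i) = 0) →
      (∀ i, eval (pt a w') (P i) = 0) → w = w') : SF S := by
  have key : ∀ (a : α → ℕ) (w : β → ℕ),
      eval (pt a w) (∑ i, (P i) ^ 2) = 0 ↔ ∀ i, eval (pt a w) (P i) = 0 := by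
    intro a w
    rw [map_sum]
    simp only [map_pow]
    rw [Finset.sum_eq_zero_iff_of_nonneg (fun i _ => sq_nonneg _)]
    simp
  refine ⟨β, inferInstance, ∑ i, (P i) ^ 2, ?_, ?_⟩
  · intro a
    rw [h1 a]
    exact exists_congr fun w => (key a w).symm
  · intro a w w' hw hw'
    exact h2 a w w' ((key a w).1 hw) ((key a w').1 hw')

theorem SF.univ {α : Type} : SF (Set.univ : Set (α → ℕ)) := by
  refine ⟨Empty, inferInstance, 0, ?_, ?_⟩
  · intro a
    simp
  · intro a w w' _ _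
    funext i
    exact i.elim

theorem SF.empty {α : Type} : SF (∅ : Set (α → ℕ)) := by
  refine ⟨Empty, inferInstance, 1, ?_, ?_⟩
  · intro a
    simp
  · intro a w w' _ _
    funext i
    exact i.elim

theorem SF.inter {α : Type} {S T : Set (α → ℕ)} (hS : SF S) (hT : SF T) : SF (S ∩ T) := by
  obtain ⟨β, hβ, P, hP1, hP2⟩ := hS
  obtain ⟨γ, hγ, Q, hQ1, hQ2⟩ := hT
  refine SF.of_system (β ⊕ γ) Bool
    (fun b => if b then rename (Sum.map id Sum.inl) P else rename (Sum.map id Sum.inr) Q) ?_ ?_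
  · intro a
    simp only [Bool.forall_bool, if_true, Bool.false_eq_true, if_false, eval_rename, pt_comp_map]
    constructor
    · rintro ⟨ha, hb⟩
      obtain ⟨w, hw⟩ := (hP1 a).1 ha
      obtain ⟨v, hv⟩ := (hQ1 a).1 hb
      exact ⟨Sum.elim w v, hv, hw⟩
    · rintro ⟨w, hv, hw⟩
      exact ⟨(hP1 a).2 ⟨_, hw⟩, (hQ1 a).2 ⟨_, hv⟩⟩
  · intro a w w' hw hw'
    simp only [Bool.forall_bool, if_true, Bool.false_eq_true, if_false, eval_rename,
      pt_comp_map] at hw hw'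
    have e1 := hP2 a _ _ hw.2 hw'.2
    have e2 := hQ2 a _ _ hw.1 hw'.1
    funext i
    cases i with
    | inl i => exact congrFun e1 i
    | inr i => exact congrFun e2 i

theorem SF.disjoint_union {α : Type} {S T : Set (α → ℕ)} (hS : SF S) (hT : SF T)
    (hd : Disjoint S T) : SF (S ∪ T) := by
  obtain ⟨β, hβ, P, hP1, hP2⟩ := hS
  obtain ⟨γ, hγ, Q, hQ1, hQ2⟩ := hT
  have key : ∀ (a : α → ℕ) (w : β ⊕ γ → ℕ),
      eval (pt a w) (((rename (Sum.map id Sum.inl) P) ^ 2 + ∑ j : γ, (X (Sum.inr (Sum.inr j))) ^ 2) *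
        ((rename (Sum.map id Sum.inr) Q) ^ 2 + ∑ i : β, (X (Sum.inr (Sum.inl i))) ^ 2)) = 0 ↔
      ((eval (pt a (w ∘ Sum.inl)) P = 0 ∧ ∀ j, w (Sum.inr j) = 0) ∨
        (eval (pt a (w ∘ Sum.inr)) Q = 0 ∧ ∀ i, w (Sum.inl i) = 0)) := by
    intro a w
    rw [map_mul, mul_eq_zero]
    have e1 : eval (pt a w) ((rename (Sum.map id Sum.inl) P) ^ 2 +
        ∑ j : γ, (X (Sum.inr (Sum.inr j))) ^ 2) = 0 ↔
        (eval (pt a (w ∘ Sum.inl)) P = 0 ∧ ∀ j, w (Sum.inr j) = 0) := by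
      rw [map_add, map_pow, eval_rename, pt_comp_map, map_sum]
      simp only [map_pow, eval_X]
      have hnn : (0:ℤ) ≤ ∑ j : γ, (pt a w (Sum.inr (Sum.inr j))) ^ 2 :=
        Finset.sum_nonneg (fun j _ => sq_nonneg _)
      constructor
      · intro h
        have h0 : (eval (pt a (w ∘ Sum.inl)) P) ^ 2 = 0 := by
          nlinarith [sq_nonneg (eval (pt a (w ∘ Sum.inl)) P)]
        have h1 : ∑ j : γ, (pt a w (Sum.inr (Sum.inr j))) ^ 2 = 0 := by
          nlinarith [sq_nonneg (eval (pt a (w ∘ Sum.inl)) P)]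
        refine ⟨by simpa using h0, fun j => ?_⟩
        rw [Finset.sum_eq_zero_iff_of_nonneg (fun i _ => sq_nonneg _)] at h1
        have := h1 j (Finset.mem_univ j)
        simpa [pt] using this
      · rintro ⟨h0, h1⟩
        rw [h0]
        simp [pt, h1]
    have e2 : eval (pt a w) ((rename (Sum.map id Sum.inr) Q) ^ 2 +
        ∑ i : β, (X (Sum.inr (Sum.inl i))) ^ 2) = 0 ↔
        (eval (pt a (w ∘ Sum.inr)) Q = 0 ∧ ∀ i, w (Sum.inl i) = 0) := by
      rw [map_add, map_pow, eval_rename, pt_comp_map, map_sum]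
      simp only [map_pow, eval_X]
      have hnn : (0:ℤ) ≤ ∑ i : β, (pt a w (Sum.inr (Sum.inl i))) ^ 2 :=
        Finset.sum_nonneg (fun j _ => sq_nonneg _)
      constructor
      · intro h
        have h0 : (eval (pt a (w ∘ Sum.inr)) Q) ^ 2 = 0 := by
          nlinarith [sq_nonneg (eval (pt a (w ∘ Sum.inr)) Q)]
        have h1 : ∑ i : β, (pt a w (Sum.inr (Sum.inl i))) ^ 2 = 0 := by
          nlinarith [sq_nonneg (eval (pt a (w ∘ Sum.inr)) Q)]
        refine ⟨by simpa using h0, fun j => ?_⟩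
        rw [Finset.sum_eq_zero_iff_of_nonneg (fun i _ => sq_nonneg _)] at h1
        have := h1 j (Finset.mem_univ j)
        simpa [pt] using this
      · rintro ⟨h0, h1⟩
        rw [h0]
        simp [pt, h1]
    rw [e1, e2]
  refine ⟨β ⊕ γ, inferInstance,
    (((rename (Sum.map id Sum.inl) P) ^ 2 + ∑ j : γ, (X (Sum.inr (Sum.inr j))) ^ 2) *
        ((rename (Sum.map id Sum.inr) Q) ^ 2 + ∑ i : β, (X (Sum.inr (Sum.inl i))) ^ 2)), ?_, ?_⟩
  · intro a
    simp only [key]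
    constructor
    · rintro (ha | ha)
      · obtain ⟨w, hw⟩ := (hP1 a).1 ha
        exact ⟨Sum.elim w 0, Or.inl ⟨hw, fun j => rfl⟩⟩
      · obtain ⟨v, hv⟩ := (hQ1 a).1 ha
        exact ⟨Sum.elim 0 v, Or.inr ⟨hv, fun j => rfl⟩⟩
    · rintro ⟨w, (⟨hw, -⟩ | ⟨hw, -⟩)⟩
      · exact Or.inl ((hP1 a).2 ⟨_, hw⟩)
      · exact Or.inr ((hQ1 a).2 ⟨_, hw⟩)
  · intro a w w' hw hw'
    rw [key] at hw hw'
    rcases hw with ⟨hw, hz⟩ | ⟨hw, hz⟩ <;> rcases hw' with ⟨hw', hz'⟩ | ⟨hw', hz'⟩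
    · have e1 := hP2 a _ _ hw hw'
      funext i
      cases i with
      | inl i => exact congrFun e1 i
      | inr i => rw [hz i, hz' i]
    · exact absurd ((hQ1 a).2 ⟨_, hw'⟩) (fun h => Set.disjoint_left.1 hd ((hP1 a).2 ⟨_, hw⟩) h)
    · exact absurd ((hQ1 a).2 ⟨_, hw⟩) (fun h => Set.disjoint_left.1 hd ((hP1 a).2 ⟨_, hw'⟩) h)
    · have e1 := hQ2 a _ _ hw hw'
      funext i
      cases i with
      | inl i => rw [hz i, hz' i]
      | inr i => exact congrFun e1 i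

end Vale.Agent.Lib.P345
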