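import Vale.Agent.Lib.P345.Basic

namespace Vale.Agent.Lib.P345

open MvPolynomial

/-- Both the set and its complement have single-fold Diophantine representations. -/
def BiSF {α : Type} (S : Set (α → ℕ)) : Prop := SF S ∧ SF Sᶜ

theorem BiSF.compl {α : Type} {S : Set (α → ℕ)} (h : BiSF S) : BiSF Sᶜ :=
  ⟨h.2, by rw [compl_compl]; exact h.1⟩

theorem BiSF.inter {α : Type} {S T : Set (α → ℕ)} (hS : BiSF S) (hT : BiSF T) :
    BiSF (S ∩ T) := by
  refine ⟨hS.1.inter hT.1, ?_⟩
  have e : (S ∩ T)ᶜ = Sᶜ ∪ (S ∩ Tᶜ) := by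
    ext a
    simp only [Set.mem_compl_iff, Set.mem_inter_iff, Set.mem_union]
    tauto
  rw [e]
  refine hS.2.disjoint_union (hS.1.inter hT.2) ?_
  rw [Set.disjoint_left]
  intro a ha hb
  exact ha hb.1

theorem BiSF.union {α : Type} {S T : Set (α → ℕ)} (hS : BiSF S) (hT : BiSF T) :
    BiSF (S ∪ T) := by
  have h := (hS.compl.inter hT.compl).compl
  rwa [Set.compl_inter, compl_compl, compl_compl] at h

theorem BiSF.univ {α : Type} : BiSF (Set.univ : Set (α → ℕ)) :=
  ⟨SF.univ, by rw [Set.compl_univ]; exact SF.empty⟩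

theorem BiSF.empty {α : Type} : BiSF (∅ : Set (α → ℕ)) :=
  ⟨SF.empty, by rw [Set.compl_empty]; exact SF.univ⟩

theorem BiSF.biInter {α ι : Type} (s : Finset ι) (f : ι → Set (α → ℕ))
    (h : ∀ i ∈ s, BiSF (f i)) : BiSF (⋂ i ∈ s, f i) := by
  classical
  induction s using Finset.induction_on with
  | empty => simpa using BiSF.univ
  | insert i s hi ih =>
    rw [Finset.set_biInter_insert]
    exact (h i (Finset.mem_insert_self i s)).inter
      (ih (fun j hj => h j (Finset.mem_insert_of_mem hj)))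

theorem BiSF.iInter {α ι : Type} [Fintype ι] (f : ι → Set (α → ℕ))
    (h : ∀ i, BiSF (f i)) : BiSF (⋂ i, f i) := by
  have := BiSF.biInter (Finset.univ) f (fun i _ => h i)
  simpa using this

theorem BiSF.biUnion {α ι : Type} (s : Finset ι) (f : ι → Set (α → ℕ))
    (h : ∀ i ∈ s, BiSF (f i)) : BiSF (⋃ i ∈ s, f i) := by
  classical
  induction s using Finset.induction_on with
  | empty => simpa using BiSF.empty
  | insert i s hi ih =>
    rw [Finset.set_biUnion_insert]
    exact (h i (Finset.mem_insert_self i s)).union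
      (ih (fun j hj => h j (Finset.mem_insert_of_mem hj)))

/-- Value of an integer polynomial at a point with natural coordinates. -/
noncomputable def ev {α : Type} (p : MvPolynomial α ℤ) (a : α → ℕ) : ℤ := eval (fun i => (a i : ℤ)) p

theorem eval_pt_rename_inl {α β : Type} (p : MvPolynomial α ℤ) (a : α → ℕ) (w : β → ℕ) :
    eval (pt a w) (rename Sum.inl p) = ev p a := by
  rw [eval_rename, pt_comp_inl]
  rfl

theorem eval_pt_X_inr {α β : Type} (a : α → ℕ) (w : β → ℕ) (j : β) :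
    eval (pt a w) (X (Sum.inr j)) = (w j : ℤ) := by
  rw [eval_X]
  rfl

theorem SF.zero_set {α : Type} (p : MvPolynomial α ℤ) : SF {a : α → ℕ | ev p a = 0} := by
  refine ⟨Empty, inferInstance, rename Sum.inl p, ?_, ?_⟩
  · intro a
    simp only [eval_pt_rename_inl, Set.mem_setOf_eq]
    exact ⟨fun h => ⟨fun i => i.elim, h⟩, fun ⟨_, h⟩ => h⟩
  · intro a w w' _ _
    funext i
    exact i.elim

theorem SF.pos_set {α : Type} (p : MvPolynomial α ℤ) : SF {a : α → ℕ | 0 < ev p a} := by
  refine ⟨Unit, inferInstance, rename Sum.inl p - X (Sum.inr ()) - 1, ?_, ?_⟩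
  · intro a
    simp only [map_sub, map_one, eval_pt_rename_inl, eval_pt_X_inr, Set.mem_setOf_eq]
    constructor
    · intro h
      refine ⟨fun _ => (ev p a - 1).toNat, ?_⟩
      rw [Int.toNat_of_nonneg (by omega)]
      ring
    · rintro ⟨w, hw⟩
      have : (0:ℤ) ≤ (w () : ℤ) := Int.natCast_nonneg _
      omega
  · intro a w w' hw hw'
    simp only [map_sub, map_one, eval_pt_rename_inl, eval_pt_X_inr] at hw hw'
    funext i
    have : (w () : ℤ) = (w' () : ℤ) := by omega
    exact_mod_cast this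

theorem ev_neg {α : Type} (p : MvPolynomial α ℤ) (a : α → ℕ) : ev (-p) a = - ev p a := by
  simp [ev]

theorem SF.neg_set {α : Type} (p : MvPolynomial α ℤ) : SF {a : α → ℕ | ev p a < 0} := by
  have h := SF.pos_set (-p)
  have e : {a : α → ℕ | 0 < ev (-p) a} = {a : α → ℕ | ev p a < 0} := by
    ext a
    simp only [Set.mem_setOf_eq, ev_neg]
    omega
  rwa [e] at h

theorem BiSF.zero_set {α : Type} (p : MvPolynomial α ℤ) : BiSF {a : α → ℕ | ev p a = 0} := by
  refine ⟨SF.zero_set p, ?_⟩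
  have e : {a : α → ℕ | ev p a = 0}ᶜ = {a : α → ℕ | 0 < ev p a} ∪ {a : α → ℕ | ev p a < 0} := by
    ext a
    simp only [Set.mem_compl_iff, Set.mem_setOf_eq, Set.mem_union]
    omega
  rw [e]
  refine (SF.pos_set p).disjoint_union (SF.neg_set p) ?_
  rw [Set.disjoint_left]
  intro a ha hb
  simp only [Set.mem_setOf_eq] at ha hb
  omega

theorem SF.mult_set {α : Type} (p : MvPolynomial α ℤ) (D : ℕ) (hD : 0 < D) :
    SF {a : α → ℕ | ∃ w : ℕ, ev p a = D * w} := by
  refine ⟨Unit, inferInstance, rename Sum.inl p - C (D : ℤ) * X (Sum.inr ()), ?_, ?_⟩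
  · intro a
    simp only [map_sub, map_mul, eval_C, eval_pt_rename_inl, eval_pt_X_inr, Set.mem_setOf_eq]
    constructor
    · rintro ⟨w, hw⟩
      exact ⟨fun _ => w, by rw [hw]; ring⟩
    · rintro ⟨w, hw⟩
      exact ⟨w (), by linarith⟩
  · intro a w w' hw hw'
    simp only [map_sub, map_mul, eval_C, eval_pt_rename_inl, eval_pt_X_inr] at hw hw'
    funext i
    have h : (D : ℤ) * (w () : ℤ) = (D : ℤ) * (w' () : ℤ) := by linarith
    have hD' : (D : ℤ) ≠ 0 := by exact_mod_cast hD.ne'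
    have := mul_left_cancel₀ hD' h
    exact_mod_cast this

theorem eval_two {σ : Type} (f : σ → ℤ) : eval f (2 : MvPolynomial σ ℤ) = 2 := by
  rw [show (2 : MvPolynomial σ ℤ) = C 2 from rfl, eval_C]

theorem SF.nonmult_set {α : Type} (p : MvPolynomial α ℤ) (D : ℕ) :
    SF {a : α → ℕ | ∃ q r s : ℕ, ev p a = D * q + r + 1 ∧ (r : ℤ) + 2 + s = D} := by
  have key : ∀ (a : α → ℕ) (w : Fin 3 → ℕ),
      (∀ b : Bool, eval (pt a w)
        (if b then rename Sum.inl p - C (D : ℤ) * X (Sum.inr 0) - X (Sum.inr 1) - 1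
          else X (Sum.inr 1) + 2 + X (Sum.inr 2) - C (D : ℤ)) = 0) ↔
      (ev p a = D * w 0 + w 1 + 1 ∧ (w 1 : ℤ) + 2 + w 2 = D) := by
    intro a w
    simp only [Bool.forall_bool, if_true, Bool.false_eq_true, if_false, map_sub, map_add, map_mul,
      map_one, eval_C, eval_pt_rename_inl, eval_pt_X_inr, eval_two]
    constructor
    · rintro ⟨h2, h1⟩
      exact ⟨by linarith, by linarith⟩
    · rintro ⟨h1, h2⟩
      exact ⟨by linarith, by linarith⟩
  refine SF.of_system (Fin 3) Bool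
    (fun b => if b then rename Sum.inl p - C (D : ℤ) * X (Sum.inr 0) - X (Sum.inr 1) - 1
      else X (Sum.inr 1) + 2 + X (Sum.inr 2) - C (D : ℤ)) ?_ ?_
  · intro a
    simp only [key, Set.mem_setOf_eq]
    constructor
    · rintro ⟨q, r, s, h1, h2⟩
      exact ⟨![q, r, s], by simpa using h1, by simpa using h2⟩
    · rintro ⟨w, h1, h2⟩
      exact ⟨w 0, w 1, w 2, h1, h2⟩
  · intro a w w' hw hw'
    rw [key] at hw hw'
    obtain ⟨hw1, hw2⟩ := hw
    obtain ⟨hw1', hw2'⟩ := hw'
    have hr : (w 1 : ℤ) + 1 = (ev p a) % (D : ℤ) := by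
      have : ev p a = ((w 1 : ℤ) + 1) + (D : ℤ) * (w 0 : ℤ) := by linarith
      rw [this, Int.add_mul_emod_self_left,
        Int.emod_eq_of_lt (by positivity) (by linarith [Int.natCast_nonneg (w 2)])]
    have hr' : (w' 1 : ℤ) + 1 = (ev p a) % (D : ℤ) := by
      have : ev p a = ((w' 1 : ℤ) + 1) + (D : ℤ) * (w' 0 : ℤ) := by linarith
      rw [this, Int.add_mul_emod_self_left,
        Int.emod_eq_of_lt (by positivity) (by linarith [Int.natCast_nonneg (w' 2)])]
    have e1 : (w 1 : ℤ) = (w' 1 : ℤ) := by linarith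
    have e2 : (w 2 : ℤ) = (w' 2 : ℤ) := by linarith
    have hD' : (D : ℤ) ≠ 0 := by
      intro h0
      rw [h0] at hw2
      linarith [Int.natCast_nonneg (w 1), Int.natCast_nonneg (w 2)]
    have e0 : (w 0 : ℤ) = (w' 0 : ℤ) := by
      have h : (D : ℤ) * (w 0 : ℤ) = (D : ℤ) * (w' 0 : ℤ) := by linarith
      exact mul_left_cancel₀ hD' h
    funext i
    fin_cases i
    · exact_mod_cast e0
    · exact_mod_cast e1
    · exact_mod_cast e2

theorem BiSF.mult_set {α : Type} (p : MvPolynomial α ℤ) (D : ℕ) (hD : 0 < D) :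
    BiSF {a : α → ℕ | ∃ w : ℕ, ev p a = D * w} := by
  refine ⟨SF.mult_set p D hD, ?_⟩
  have e : {a : α → ℕ | ∃ w : ℕ, ev p a = D * w}ᶜ = {a : α → ℕ | ev p a < 0} ∪
      {a : α → ℕ | ∃ q r s : ℕ, ev p a = D * q + r + 1 ∧ (r : ℤ) + 2 + s = D} := by
    ext a
    simp only [Set.mem_compl_iff, Set.mem_setOf_eq, Set.mem_union]
    have hDz : (0 : ℤ) < (D : ℤ) := by exact_mod_cast hD
    constructor
    · intro h
      by_cases hneg : ev p a < 0
      · exact Or.inl hneg
      · right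
        have hneg : 0 ≤ ev p a := not_lt.1 hneg
        have hm0 : 0 ≤ ev p a % (D : ℤ) := Int.emod_nonneg _ hDz.ne'
        have hm1 : ev p a % (D : ℤ) < D := Int.emod_lt_of_pos _ hDz
        have hq0 : 0 ≤ ev p a / (D : ℤ) := Int.ediv_nonneg hneg hDz.le
        have hdm : (D : ℤ) * (ev p a / (D : ℤ)) + ev p a % (D : ℤ) = ev p a :=
          Int.mul_ediv_add_emod _ _
        have hmne : ev p a % (D : ℤ) ≠ 0 := by
          intro h0
          apply h
          refine ⟨(ev p a / (D : ℤ)).toNat, ?_⟩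
          rw [Int.toNat_of_nonneg hq0]
          linarith
        refine ⟨(ev p a / (D : ℤ)).toNat, (ev p a % (D : ℤ) - 1).toNat,
          ((D : ℤ) - ev p a % (D : ℤ) - 1).toNat, ?_, ?_⟩
        · rw [Int.toNat_of_nonneg hq0, Int.toNat_of_nonneg (by omega)]
          linarith
        · rw [Int.toNat_of_nonneg (by omega), Int.toNat_of_nonneg (by omega)]
          ring
    · rintro (hneg | ⟨q, r, s, h1, h2⟩)
      · rintro ⟨w, hw⟩
        have : (0 : ℤ) ≤ (D : ℤ) * (w : ℤ) := by positivity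
        linarith
      · rintro ⟨w, hw⟩
        have hm : ev p a % (D : ℤ) = (r : ℤ) + 1 := by
          have : ev p a = ((r : ℤ) + 1) + (D : ℤ) * (q : ℤ) := by linarith
          rw [this, Int.add_mul_emod_self_left,
            Int.emod_eq_of_lt (by positivity) (by linarith [Int.natCast_nonneg s])]
        have hm' : ev p a % (D : ℤ) = 0 := by
          rw [hw]
          exact Int.mul_emod_right _ _
        have : (0 : ℤ) ≤ (r : ℤ) := Int.natCast_nonneg _
        linarith
  rw [e]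
  refine (SF.neg_set p).disjoint_union (SF.nonmult_set p D) ?_
  rw [Set.disjoint_left]
  rintro a ha ⟨q, r, s, h1, h2⟩
  simp only [Set.mem_setOf_eq] at ha
  have : (0 : ℤ) ≤ (D : ℤ) * (q : ℤ) := by positivity
  have : (0 : ℤ) ≤ (r : ℤ) := Int.natCast_nonneg _
  linarith

end Vale.Agent.Lib.P345
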