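import Vale.Agent.Lib.P345.Main

namespace Vale.Agent.Lib.P345

open MvPolynomial

theorem eval_cast_map {α : Type} (a : α → ℕ) (p : MvPolynomial α ℕ) :
    eval (fun j => (a j : ℤ)) (map (Nat.castRingHom ℤ) p) = ((eval a p : ℕ) : ℤ) := by
  rw [eval_map]
  have h := eval₂_comp_left (Nat.castRingHom ℤ) (RingHom.id ℕ) a p
  simp only [RingHom.comp_id] at h
  exact h.symm

theorem SF.comap_poly {α γ : Type} (f : γ → MvPolynomial α ℕ) {S : Set (γ → ℕ)} (h : SF S) :
    SF {a : α → ℕ | (fun i => eval a (f i)) ∈ S} := by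
  obtain ⟨β, hβ, P, h1, h2⟩ := h
  have key : ∀ (a : α → ℕ) (w : β → ℕ),
      eval (pt a w) (bind₁ (Sum.elim (fun i => rename Sum.inl (map (Nat.castRingHom ℤ) (f i)))
        (fun j => X (Sum.inr j))) P) = eval (pt (fun i => eval a (f i)) w) P := by
    intro a w
    have e := eval₂Hom_bind₁ (RingHom.id ℤ) (pt a w)
      (Sum.elim (fun i => rename Sum.inl (map (Nat.castRingHom ℤ) (f i)))
        (fun j => (X (Sum.inr j) : MvPolynomial (α ⊕ β) ℤ))) P
    have e' : (fun i => eval₂Hom (RingHom.id ℤ) (pt a w)
        ((Sum.elim (fun i => rename Sum.inl (map (Nat.castRingHom ℤ) (f i)))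
        (fun j => (X (Sum.inr j) : MvPolynomial (α ⊕ β) ℤ))) i)) =
        pt (fun i => eval a (f i)) w := by
      funext i
      cases i with
      | inl i =>
        simp only [Sum.elim_inl]
        change eval (pt a w) (rename Sum.inl (map (Nat.castRingHom ℤ) (f i))) = _
        rw [eval_rename, pt_comp_inl, eval_cast_map]
        rfl
      | inr j =>
        simp only [Sum.elim_inr]
        change eval (pt a w) (X (Sum.inr j)) = _
        rw [eval_X]
        rfl
    rw [e'] at e
    exact e
  refine ⟨β, hβ, bind₁ (Sum.elim (fun i => rename Sum.inl (map (Nat.castRingHom ℤ) (f i)))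
        (fun j => X (Sum.inr j))) P, ?_, ?_⟩
  · intro a
    simp only [key]
    exact h1 _
  · intro a w w' hw hw'
    rw [key] at hw hw'
    exact h2 _ w w' hw hw'

/-- Preimages of Presburger-definable sets under polynomial maps with natural coefficients, and
their complements, have single-fold Diophantine representations. -/
theorem presburger_poly_singleFold (k m : ℕ) (A : Set ℕ) (S : Set (Fin k → ℕ))
    (hS : A.Definable FirstOrder.Language.presburger S) (f : Fin k → MvPolynomial (Fin m) ℕ) :
    HasSingleFoldRep {a : Fin m → ℕ | (fun i => eval a (f i)) ∈ S} ∧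
      HasSingleFoldRep {a : Fin m → ℕ | (fun i => eval a (f i)) ∈ S}ᶜ := by
  have h := BiSF.of_semilinear (FirstOrder.Language.presburger.definable_iff_isSemilinearSet.1 hS)
  exact ⟨(h.1.comap_poly f).hasSingleFoldRep, (h.2.comap_poly f).hasSingleFoldRep⟩

end Vale.Agent.Lib.P345
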