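import Mathlib

namespace Vale.Agent.Lib.P345

/-- The integer point whose parameter coordinates are `a` and whose witness coordinates are `w`. -/
def pt {α β : Type*} (a : α → ℕ) (w : β → ℕ) : α ⊕ β → ℤ :=
  fun i => ((Sum.elim a w i : ℕ) : ℤ)

/-- `P` is a single-fold Diophantine representation of `S ⊆ ℕ^n` with `m` witness variables:
`a ∈ S` iff `P(a, w) = 0` for some `w ∈ ℕ^m`, and for every `a ∈ ℕ^n` the equation
`P(a, w) = 0` has at most one solution `w ∈ ℕ^m`. -/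
def IsSingleFoldRep {n m : ℕ} (S : Set (Fin n → ℕ))
    (P : MvPolynomial (Fin n ⊕ Fin m) ℤ) : Prop :=
  (∀ a : Fin n → ℕ, a ∈ S ↔ ∃ w : Fin m → ℕ, MvPolynomial.eval (pt a w) P = 0) ∧
  (∀ (a : Fin n → ℕ) (w w' : Fin m → ℕ),
    MvPolynomial.eval (pt a w) P = 0 → MvPolynomial.eval (pt a w') P = 0 → w = w')

/-- `S ⊆ ℕ^n` has a single-fold Diophantine representation (with some number of witnesses). -/
def HasSingleFoldRep {n : ℕ} (S : Set (Fin n → ℕ)) : Prop :=
  ∃ (m : ℕ) (P : MvPolynomial (Fin n ⊕ Fin m) ℤ), IsSingleFoldRep S P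

end Vale.Agent.Lib.P345
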