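import Vale.Agent.Lib.P345.Bool

namespace Vale.Agent.Lib.P345

open MvPolynomial

/-- Cast of a natural vector to a rational vector. -/
def ratVec {α : Type} : (α → ℕ) →+ (α → ℚ) := (Nat.castAddMonoidHom ℚ).compLeft α

theorem ratVec_apply {α : Type} (x : α → ℕ) (k : α) : ratVec x k = (x k : ℚ) := rfl

theorem ratVec_inj {α : Type} (x y : α → ℕ) : ratVec x = ratVec y ↔ x = y := by
  refine ⟨fun h => ?_, congr_arg ratVec⟩
  ext i
  simpa [ratVec] using congr_fun h i

theorem linearIndepOn_ratVec {α : Type} {s : Set (α → ℕ)} (hs : LinearIndepOn ℕ id s) :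
    LinearIndepOn ℚ ratVec s := by
  rw [LinearIndepOn, ← LinearIndependent.iff_fractionRing ℤ ℚ, ← LinearIndepOn, linearIndepOn_iff'']
  intro t f ht hf heq i hi
  rw [linearIndepOn_iff_linearIndepOn_finset] at hs
  specialize hs t ht
  rw [linearIndepOn_finset_iffₛ] at hs
  specialize hs (Int.toNat ∘ f) (Int.toNat ∘ (-·) ∘ f) ?_ i hi
  · simp_rw [← ratVec_inj, map_sum]
    rw [← sub_eq_zero, ← Finset.sum_sub_distrib, ← heq]
    refine Finset.sum_congr rfl fun j hj => ?_
    conv_rhs => rw [← (f j).toNat_sub_toNat_neg]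
    simp only [sub_smul, map_nsmul, natCast_zsmul, Function.comp_apply, id_eq]
  · rw [← (f i).toNat_sub_toNat_neg, sub_eq_zero, Int.natCast_inj]
    simpa using hs

/-- Rational dual family of a linearly independent finite family of natural vectors. -/
theorem exists_rat_dual {α : Type} [Fintype α] [DecidableEq α] (t : Finset (α → ℕ))
    (hs : LinearIndepOn ℕ id (t : Set (α → ℕ))) :
    ∃ G : (α → ℕ) → α → ℚ, ∀ p ∈ t, ∀ p' ∈ t,
      ∑ k, G p k * (p' k : ℚ) = if p = p' then 1 else 0 := by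
  classical
  have hli : LinearIndependent ℚ (fun p : (t : Set (α → ℕ)) => ratVec p.1) :=
    linearIndepOn_ratVec hs
  rw [linearIndependent_iff_injective_fintypeLinearCombination] at hli
  obtain ⟨g, hg⟩ := LinearMap.exists_leftInverse_of_injective
    (Fintype.linearCombination ℚ (fun p : (t : Set (α → ℕ)) => ratVec p.1))
    (LinearMap.ker_eq_bot.2 hli)
  refine ⟨fun p k => if hp : p ∈ t then g (Pi.single k 1) ⟨p, hp⟩ else 0, ?_⟩
  intro p hp p' hp'
  have h1 : g (ratVec p') = Pi.single (⟨p', hp'⟩ : (t : Set (α → ℕ))) (1 : ℚ) := by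
    have := LinearMap.congr_fun hg (Pi.single (⟨p', hp'⟩ : (t : Set (α → ℕ))) (1 : ℚ))
    simpa using this
  have h2 : g (ratVec p') = ∑ k, (p' k : ℚ) • g (Pi.single k 1) := by
    conv_lhs => rw [show ratVec p' = ∑ k, (p' k : ℚ) • (Pi.single k (1 : ℚ) : α → ℚ) from by
      funext j
      simp [ratVec_apply, Finset.sum_apply, Pi.single_apply]]
    rw [map_sum]
    simp
  have h3 := congrFun (h1.symm.trans h2) ⟨p, hp⟩
  simp only [dif_pos hp]
  rw [Finset.sum_apply] at h3
  simp only [Pi.smul_apply, smul_eq_mul] at h3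
  rw [show (∑ k, g (Pi.single k 1) ⟨p, hp⟩ * (p' k : ℚ)) = ∑ k, (p' k : ℚ) * g (Pi.single k 1) ⟨p, hp⟩
    from Finset.sum_congr rfl (fun k _ => mul_comm _ _), ← h3, Pi.single_apply]
  simp only [Subtype.mk.injEq]

/-- Integer dual family (up to a common positive factor `D`). -/
theorem exists_int_dual {α : Type} [Fintype α] [DecidableEq α] (t : Finset (α → ℕ))
    (hs : LinearIndepOn ℕ id (t : Set (α → ℕ))) :
    ∃ (D : ℕ) (Q : (α → ℕ) → α → ℤ), 0 < D ∧ ∀ p ∈ t, ∀ p' ∈ t,
      ∑ k, Q p k * (p' k : ℤ) = if p = p' then (D : ℤ) else 0 := by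
  classical
  obtain ⟨G, hG⟩ := exists_rat_dual t hs
  let D : ℕ := ∏ p ∈ t, ∏ k, (G p k).den
  have hD : 0 < D := Finset.prod_pos (fun p _ => Finset.prod_pos (fun k _ => (G p k).den_pos))
  refine ⟨D, fun p k => (G p k).num * ((D / (G p k).den : ℕ) : ℤ), hD, ?_⟩
  intro p hp p' hp'
  have hQ : ∀ k, (((G p k).num * ((D / (G p k).den : ℕ) : ℤ) : ℤ) : ℚ) = (D : ℚ) * G p k := by
    intro k
    have hdvd : (G p k).den ∣ D :=
      (Finset.dvd_prod_of_mem _ (Finset.mem_univ k)).trans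
        (Finset.dvd_prod_of_mem (fun p => ∏ k, (G p k).den) hp)
    obtain ⟨c, hc⟩ := hdvd
    have hden : ((G p k).den : ℚ) ≠ 0 := by exact_mod_cast (G p k).den_ne_zero
    rw [hc, Nat.mul_div_cancel_left _ (G p k).den_pos]
    rw [Int.cast_mul, Int.cast_natCast, Nat.cast_mul,
      show ((G p k).den : ℚ) * (c : ℚ) * G p k = (c : ℚ) * (G p k * (G p k).den) by ring,
      Rat.mul_den_eq_num]
    ring
  have key : ((∑ k, (G p k).num * ((D / (G p k).den : ℕ) : ℤ) * (p' k : ℤ) : ℤ) : ℚ) =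
      ((if p = p' then (D : ℤ) else 0 : ℤ) : ℚ) := by
    rw [Int.cast_sum]
    have : ∀ k, (((G p k).num * ((D / (G p k).den : ℕ) : ℤ) * (p' k : ℤ) : ℤ) : ℚ) =
        (D : ℚ) * (G p k * (p' k : ℚ)) := by
      intro k
      rw [Int.cast_mul, hQ k, Int.cast_natCast]
      ring
    simp_rw [this]
    rw [← Finset.mul_sum, hG p hp p' hp']
    split_ifs <;> simp
  exact_mod_cast key

end Vale.Agent.Lib.P345
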