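import Vale.Agent.Lib.P345.Dual

namespace Vale.Agent.Lib.P345

open MvPolynomial Pointwise

theorem mem_linear_iff {α : Type} (b : α → ℕ) (t : Finset (α → ℕ)) (a : α → ℕ) :
    a ∈ b +ᵥ (AddSubmonoid.closure (t : Set (α → ℕ)) : Set (α → ℕ)) ↔
      ∃ g : (α → ℕ) → ℕ, a = b + ∑ p ∈ t, g p • p := by
  rw [Set.mem_vadd_set]
  constructor
  · rintro ⟨y, hy, rfl⟩
    rw [SetLike.mem_coe, AddSubmonoid.mem_closure_finset] at hy
    obtain ⟨g, -, rfl⟩ := hy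
    exact ⟨g, rfl⟩
  · rintro ⟨g, rfl⟩
    refine ⟨∑ p ∈ t, g p • p, ?_, rfl⟩
    exact sum_mem (fun p hp => nsmul_mem (AddSubmonoid.subset_closure hp) _)

/-- The linear form `ν_p(a) = ∑_j Q p j * (a j - b j)`. -/
noncomputable def nu {α : Type} [Fintype α] (Q : (α → ℕ) → α → ℤ) (b : α → ℕ) (p : α → ℕ) :
    MvPolynomial α ℤ :=
  ∑ j, C (Q p j) * (X j - C (b j : ℤ))

theorem ev_nu {α : Type} [Fintype α] (Q : (α → ℕ) → α → ℤ) (b : α → ℕ) (p : α → ℕ)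
    (a : α → ℕ) : ev (nu Q b p) a = ∑ j, Q p j * ((a j : ℤ) - (b j : ℤ)) := by
  simp [ev, nu]

/-- The linear form `μ_k(a) = D * (a k - b k) - ∑_{p ∈ t} ν_p(a) * p k`. -/
noncomputable def mu {α : Type} [Fintype α] (D : ℕ) (Q : (α → ℕ) → α → ℤ) (b : α → ℕ)
    (t : Finset (α → ℕ)) (k : α) : MvPolynomial α ℤ :=
  C (D : ℤ) * (X k - C (b k : ℤ)) - ∑ p ∈ t, nu Q b p * C (p k : ℤ)

theorem ev_mu {α : Type} [Fintype α] (D : ℕ) (Q : (α → ℕ) → α → ℤ) (b : α → ℕ)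
    (t : Finset (α → ℕ)) (k : α) (a : α → ℕ) :
    ev (mu D Q b t k) a = D * ((a k : ℤ) - (b k : ℤ)) - ∑ p ∈ t, ev (nu Q b p) a * (p k : ℤ) := by
  simp [ev, mu]

theorem linear_eq_inter {α : Type} [Fintype α] [DecidableEq α] (b : α → ℕ) (t : Finset (α → ℕ))
    (D : ℕ) (Q : (α → ℕ) → α → ℤ) (hD : 0 < D)
    (hQ : ∀ p ∈ t, ∀ p' ∈ t, ∑ k, Q p k * (p' k : ℤ) = if p = p' then (D : ℤ) else 0) :
    (b +ᵥ (AddSubmonoid.closure (t : Set (α → ℕ)) : Set (α → ℕ))) =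
      (⋂ k, {a : α → ℕ | ev (mu D Q b t k) a = 0}) ∩
        (⋂ p ∈ t, {a : α → ℕ | ∃ w : ℕ, ev (nu Q b p) a = D * w}) := by
  classical
  ext a
  rw [mem_linear_iff]
  simp only [Set.mem_inter_iff, Set.mem_iInter, Set.mem_setOf_eq]
  constructor
  · rintro ⟨g, rfl⟩
    have hnu : ∀ p ∈ t, ev (nu Q b p) (b + ∑ p ∈ t, g p • p) = D * (g p : ℤ) := by
      intro p hp
      rw [ev_nu]
      have h1 : ∀ j, (((b + ∑ p ∈ t, g p • p) j : ℕ) : ℤ) - (b j : ℤ) =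
          ∑ p' ∈ t, (g p' : ℤ) * (p' j : ℤ) := by
        intro j
        simp [Finset.sum_apply]
      simp_rw [h1, Finset.mul_sum]
      rw [Finset.sum_comm]
      have h2 : ∀ p' ∈ t, ∑ j, Q p j * ((g p' : ℤ) * (p' j : ℤ)) =
          (g p' : ℤ) * (if p = p' then (D : ℤ) else 0) := by
        intro p' hp'
        rw [← hQ p hp p' hp', Finset.mul_sum]
        exact Finset.sum_congr rfl (fun j _ => by ring)
      rw [Finset.sum_congr rfl h2]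
      simp [Finset.sum_ite_eq, hp, mul_comm]
    refine ⟨fun k => ?_, fun p hp => ⟨g p, hnu p hp⟩⟩
    have h1 : (((b + ∑ p ∈ t, g p • p) k : ℕ) : ℤ) - (b k : ℤ) =
        ∑ p' ∈ t, (g p' : ℤ) * (p' k : ℤ) := by
      simp [Finset.sum_apply]
    have hsum : ∑ p ∈ t, ev (nu Q b p) (b + ∑ p ∈ t, g p • p) * (p k : ℤ) =
        ∑ p ∈ t, ((D : ℤ) * (g p : ℤ)) * (p k : ℤ) :=
      Finset.sum_congr rfl (fun p hp => by rw [hnu p hp])
    rw [ev_mu, hsum, h1, Finset.mul_sum, ← Finset.sum_sub_distrib]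
    exact Finset.sum_eq_zero (fun p _ => by ring)
  · rintro ⟨hmu, hnu⟩
    choose! g hg using hnu
    refine ⟨g, ?_⟩
    funext k
    have h1 := hmu k
    have hsum : ∑ p ∈ t, ev (nu Q b p) a * (p k : ℤ) =
        ∑ p ∈ t, ((D : ℤ) * (g p : ℤ)) * (p k : ℤ) :=
      Finset.sum_congr rfl (fun p hp => by rw [hg p hp])
    rw [ev_mu, hsum] at h1
    have hDz : (D : ℤ) ≠ 0 := by exact_mod_cast hD.ne'
    have h2 : (D : ℤ) * ((a k : ℤ) - (b k : ℤ) - ∑ p ∈ t, (g p : ℤ) * (p k : ℤ)) = 0 := by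
      rw [mul_sub, Finset.mul_sum]
      rw [← h1]
      congr 1
      exact Finset.sum_congr rfl (fun p _ => by ring)
    have h3 := (mul_eq_zero.1 h2).resolve_left hDz
    have h4 : (a k : ℤ) = ((b k + ∑ p ∈ t, g p * p k : ℕ) : ℤ) := by
      push_cast
      linarith
    have h5 : a k = b k + ∑ p ∈ t, g p * p k := by exact_mod_cast h4
    simp [Finset.sum_apply, h5]

end Vale.Agent.Lib.P345
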