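import Vale.Agent.Lib.P345.Linear

namespace Vale.Agent.Lib.P345

open MvPolynomial Pointwise

theorem BiSF.of_properLinear {α : Type} [Fintype α] [DecidableEq α] {S : Set (α → ℕ)}
    (h : IsProperLinearSet S) : BiSF S := by
  rw [isProperLinearSet_iff] at h
  obtain ⟨b, t, hind, rfl⟩ := h
  obtain ⟨D, Q, hD, hQ⟩ := exists_int_dual t hind
  rw [linear_eq_inter b t D Q hD hQ]
  exact (BiSF.iInter _ (fun k => BiSF.zero_set _)).inter
    (BiSF.biInter t _ (fun p _ => BiSF.mult_set _ D hD))

theorem BiSF.of_semilinear {α : Type} [Fintype α] [DecidableEq α] {S : Set (α → ℕ)}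
    (h : IsSemilinearSet S) : BiSF S := by
  obtain ⟨F, hfin, hlin, rfl⟩ := h.isProperSemilinearSet
  rw [Set.sUnion_eq_biUnion]
  have := BiSF.biUnion hfin.toFinset (fun s : Set (α → ℕ) => s)
    (fun s hs => BiSF.of_properLinear (hlin s (hfin.mem_toFinset.1 hs)))
  simpa using this

/-- Every Presburger-definable subset of `ℕ^n` and its complement have single-fold Diophantine
representations. -/
theorem presburger_singleFold (n : ℕ) (A : Set ℕ) (S : Set (Fin n → ℕ))
    (hS : A.Definable FirstOrder.Language.presburger S) :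
    HasSingleFoldRep S ∧ HasSingleFoldRep Sᶜ := by
  have h := BiSF.of_semilinear (FirstOrder.Language.presburger.definable_iff_isSemilinearSet.1 hS)
  exact ⟨h.1.hasSingleFoldRep, h.2.hasSingleFoldRep⟩

theorem semilinear_singleFold (n : ℕ) (S : Set (Fin n → ℕ)) (hS : IsSemilinearSet S) :
    HasSingleFoldRep S ∧ HasSingleFoldRep Sᶜ := by
  have h := BiSF.of_semilinear hS
  exact ⟨h.1.hasSingleFoldRep, h.2.hasSingleFoldRep⟩

end Vale.Agent.Lib.P345
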