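import Mathlib

namespace Vale.Agent.Lib.P345

/-- Arithmetic terms without exponentiation in the variables `x_0, ..., x_(n-1)`: built from
variables and natural constants by addition, multiplication, truncated subtraction, integer
division and remainder. -/
inductive ATerm (n : ℕ) : Type
  | var (i : Fin n) : ATerm n
  | const (c : ℕ) : ATerm n
  | add (s t : ATerm n) : ATerm n
  | mul (s t : ATerm n) : ATerm n
  | tsub (s t : ATerm n) : ATerm n
  | div (s t : ATerm n) : ATerm n
  | mod (s t : ATerm n) : ATerm n

/-- The value of a term at a point `a` of `ℕ^n`, by recursion on the term; the seven cases are,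
in the order of the constructors: the variable `x_i` has value `a i`, a constant has its own
value, and the values of `add`, `mul`, `tsub`, `div`, `mod` are obtained from the values
`x`, `y` of the two subterms as `x + y`, `x * y`, `x - y` (truncated), `x / y` (integer
division, `x / 0 = 0`) and `x % y` (remainder, `x % 0 = x`). -/
noncomputable def ATerm.val {n : ℕ} (t : ATerm n) (a : Fin n → ℕ) : ℕ :=
  ATerm.rec (motive := fun _ => ℕ) (fun i => a i) (fun c => c)
    (fun _ _ x y => x + y) (fun _ _ x y => x * y) (fun _ _ x y => x - y)
    (fun _ _ x y => x / y) (fun _ _ x y => x % y) t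

end Vale.Agent.Lib.P345
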