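import Mathlib

namespace Vale.Agent.Lib.P345

/-- Arithmetic terms without exponentiation, with greatest common divisors and integer square
roots, in the variables `x_0, ..., x_(n-1)`: built from variables and natural constants by
addition, multiplication, truncated subtraction, integer division, remainder, greatest common
divisor and integer square root. -/
inductive GTerm (n : ℕ) : Type
  | var (i : Fin n) : GTerm n
  | const (c : ℕ) : GTerm n
  | add (s t : GTerm n) : GTerm n
  | mul (s t : GTerm n) : GTerm n
  | tsub (s t : GTerm n) : GTerm n
  | div (s t : GTerm n) : GTerm n
  | mod (s t : GTerm n) : GTerm n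
  | gcd (s t : GTerm n) : GTerm n
  | sqrt (s : GTerm n) : GTerm n

/-- The value of a term at a point `a` of `ℕ^n`, by recursion on the term; the nine cases are,
in the order of the constructors: the variable `x_i` has value `a i`, a constant has its own
value, the values of `add`, `mul`, `tsub`, `div`, `mod`, `gcd` are obtained from the values
`x`, `y` of the two subterms as `x + y`, `x * y`, `x - y` (truncated), `x / y` (integer
division, `x / 0 = 0`), `x % y` (remainder, `x % 0 = x`) and `Nat.gcd x y`, and the value of
`sqrt` is the integer square root `Nat.sqrt x` of the value `x` of its subterm. -/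
noncomputable def GTerm.val {n : ℕ} (t : GTerm n) (a : Fin n → ℕ) : ℕ :=
  GTerm.rec (motive := fun _ => ℕ) (fun i => a i) (fun c => c)
    (fun _ _ x y => x + y) (fun _ _ x y => x * y) (fun _ _ x y => x - y)
    (fun _ _ x y => x / y) (fun _ _ x y => x % y) (fun _ _ x y => Nat.gcd x y)
    (fun _ x => Nat.sqrt x) t

end Vale.Agent.Lib.P345
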