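import Vale.Agent.Lib.P345.Comap
import Vale.Agent.Lib.P345.TermDefs

/-!
# P345: single-fold representations for arithmetic terms without exponentiation

`ATerm n` is the type of terms in the variables `x_0, ..., x_(n-1)` built from variables and
natural constants by addition, multiplication, truncated subtraction, integer division and
remainder.  We show that the graph of the function defined by such a term has a single-fold
Diophantine representation, and so do its complement, the zero set of the term and the
complement of the zero set.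
-/

namespace Vale.Agent.Lib.P345

open MvPolynomial

/-- Adjoin the value `b` at the new coordinate `none`. -/
def ocons {α : Type} (a : α → ℕ) (b : ℕ) : Option α → ℕ := fun o => o.elim b a

theorem ocons_none {α : Type} (a : α → ℕ) (b : ℕ) : ocons a b none = b := rfl

theorem ocons_some {α : Type} (a : α → ℕ) (b : ℕ) (i : α) : ocons a b (some i) = a i := rfl

theorem ocons_eta {α : Type} (v : Option α → ℕ) : ocons (fun i => v (some i)) (v none) = v := by
  funext o
  cases o <;> rfl

/-- Preimage under a map of variables. -/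
theorem SF.comap_rename {α γ : Type} (ρ : γ → α) {S : Set (γ → ℕ)} (h : SF S) :
    SF {a : α → ℕ | (fun i => a (ρ i)) ∈ S} := by
  have h' := h.comap_poly (fun i => (X (ρ i) : MvPolynomial α ℕ))
  have e : {a : α → ℕ | (fun i => eval a ((X (ρ i) : MvPolynomial α ℕ))) ∈ S} =
      {a : α → ℕ | (fun i => a (ρ i)) ∈ S} := by
    ext a
    simp only [eval_X]
  rwa [e] at h'

/-- Projection along a coordinate that is determined by the others. -/
theorem SF.proj {α : Type} {S : Set (Option α → ℕ)} (h : SF S)
    (hu : ∀ (a : α → ℕ) (b b' : ℕ), ocons a b ∈ S → ocons a b' ∈ S → b = b') :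
    SF {a : α → ℕ | ∃ b : ℕ, ocons a b ∈ S} := by
  obtain ⟨β, hβ, P, h1, h2⟩ := h
  let e : Option α ⊕ β → α ⊕ Option β := fun x =>
    match x with
    | Sum.inl none => Sum.inr none
    | Sum.inl (some i) => Sum.inl i
    | Sum.inr j => Sum.inr (some j)
  have key : ∀ (a : α → ℕ) (w : Option β → ℕ),
      eval (pt a w) (rename e P) = eval (pt (ocons a (w none)) (fun j => w (some j))) P := by
    intro a w
    have hpt : pt a w ∘ e = pt (ocons a (w none)) (fun j => w (some j)) := by
      funext x
      rcases x with (_ | i) | j <;> rfl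
    rw [eval_rename, hpt]
  refine ⟨Option β, inferInstance, rename e P, ?_, ?_⟩
  · intro a
    simp only [Set.mem_ofPred_eq, key]
    constructor
    · rintro ⟨b, hb⟩
      obtain ⟨w, hw⟩ := (h1 _).1 hb
      exact ⟨ocons w b, hw⟩
    · rintro ⟨w, hw⟩
      exact ⟨w none, (h1 _).2 ⟨_, hw⟩⟩
  · intro a w w' hw hw'
    rw [key] at hw hw'
    have hb : w none = w' none := hu a _ _ ((h1 _).2 ⟨_, hw⟩) ((h1 _).2 ⟨_, hw'⟩)
    rw [hb] at hw
    have h3 := h2 _ _ _ hw hw'
    funext o
    cases o with
    | none => exact hb
    | some j => exact congrFun h3 j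

/-- The graph of a function of the parameters, the value sitting at the coordinate `none`. -/
def Graph {α : Type} (f : (α → ℕ) → ℕ) : Set (Option α → ℕ) :=
  {v | v none = f (fun i => v (some i))}

theorem mem_graph {α : Type} (f : (α → ℕ) → ℕ) (v : Option α → ℕ) :
    v ∈ Graph f ↔ v none = f (fun i => v (some i)) := Iff.rfl

/-- The function `f` has a graph with a single-fold representation. -/
def GSF {α : Type} (f : (α → ℕ) → ℕ) : Prop := SF (Graph f)

theorem BiSF.pos_set {α : Type} (p : MvPolynomial α ℤ) : BiSF {a : α → ℕ | 0 < ev p a} := by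
  refine ⟨SF.pos_set p, ?_⟩
  have e : {a : α → ℕ | 0 < ev p a}ᶜ = {a : α → ℕ | ev p a < 0} ∪ {a : α → ℕ | ev p a = 0} := by
    ext a
    simp only [Set.mem_compl_iff, Set.mem_ofPred_eq, Set.mem_union]
    omega
  rw [e]
  refine (SF.neg_set p).disjoint_union (SF.zero_set p) ?_
  rw [Set.disjoint_left]
  intro a ha hb
  simp only [Set.mem_ofPred_eq] at ha hb
  omega

theorem ev_map_sub {α : Type} (p q : MvPolynomial α ℕ) (a : α → ℕ) :
    ev (map (Nat.castRingHom ℤ) p - map (Nat.castRingHom ℤ) q) a =
      ((eval a p : ℕ) : ℤ) - ((eval a q : ℕ) : ℤ) := by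
  unfold ev
  rw [map_sub, eval_cast_map, eval_cast_map]

theorem BiSF.nat_eq {α : Type} (p q : MvPolynomial α ℕ) :
    BiSF {a : α → ℕ | eval a p = eval a q} := by
  have h := BiSF.zero_set (map (Nat.castRingHom ℤ) p - map (Nat.castRingHom ℤ) q)
  have e : {a : α → ℕ | ev (map (Nat.castRingHom ℤ) p - map (Nat.castRingHom ℤ) q) a = 0} =
      {a : α → ℕ | eval a p = eval a q} := by
    ext a
    simp only [Set.mem_ofPred_eq, ev_map_sub]
    omega
  rwa [e] at h

theorem BiSF.nat_lt {α : Type} (p q : MvPolynomial α ℕ) :
    BiSF {a : α → ℕ | eval a p < eval a q} := by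
  have h := BiSF.pos_set (map (Nat.castRingHom ℤ) q - map (Nat.castRingHom ℤ) p)
  have e : {a : α → ℕ | 0 < ev (map (Nat.castRingHom ℤ) q - map (Nat.castRingHom ℤ) p) a} =
      {a : α → ℕ | eval a p < eval a q} := by
    ext a
    simp only [Set.mem_ofPred_eq, ev_map_sub]
    omega
  rwa [e] at h

/-! ### Graphs of the basic operations -/

theorem add_graph : SF {u : Fin 3 → ℕ | u 2 = u 0 + u 1} := by
  have h := (BiSF.nat_eq (X 2 : MvPolynomial (Fin 3) ℕ) (X 0 + X 1)).1
  simpa using h

theorem mul_graph : SF {u : Fin 3 → ℕ | u 2 = u 0 * u 1} := by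
  have h := (BiSF.nat_eq (X 2 : MvPolynomial (Fin 3) ℕ) (X 0 * X 1)).1
  simpa using h

theorem tsub_graph : SF {u : Fin 3 → ℕ | u 2 = u 0 - u 1} := by
  have hL := BiSF.nat_lt (X 0 : MvPolynomial (Fin 3) ℕ) (X 1)
  have hB := BiSF.nat_eq (X 2 + X 1 : MvPolynomial (Fin 3) ℕ) (X 0)
  have hC := BiSF.nat_eq (X 2 : MvPolynomial (Fin 3) ℕ) 0
  have h := ((hL.compl.inter hB).union (hL.inter hC)).1
  have e : ({a : Fin 3 → ℕ | eval a (X 0 : MvPolynomial (Fin 3) ℕ) < eval a (X 1)}ᶜ ∩
        {a : Fin 3 → ℕ | eval a (X 2 + X 1 : MvPolynomial (Fin 3) ℕ) = eval a (X 0)}) ∪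
      ({a : Fin 3 → ℕ | eval a (X 0 : MvPolynomial (Fin 3) ℕ) < eval a (X 1)} ∩
        {a : Fin 3 → ℕ | eval a (X 2 : MvPolynomial (Fin 3) ℕ) = eval a 0}) =
      {u : Fin 3 → ℕ | u 2 = u 0 - u 1} := by
    ext u
    simp only [Set.mem_union, Set.mem_inter_iff, Set.mem_compl_iff, Set.mem_ofPred_eq, eval_X,
      map_add, map_zero]
    omega
  rwa [e] at h

theorem nat_div_char (x y z : ℕ) :
    z = x / y ↔ (y = 0 ∧ z = 0) ∨ (¬ y = 0 ∧ y * z < x + 1 ∧ x < y * (z + 1)) := by
  rcases Nat.eq_zero_or_pos y with h | h
  · subst h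
    simp
  · have hy : ¬ y = 0 := by omega
    constructor
    · intro hz
      subst hz
      refine Or.inr ⟨hy, ?_, ?_⟩
      · have := Nat.mul_div_le x y
        omega
      · exact Nat.lt_mul_div_succ x h
    · rintro (⟨h0, -⟩ | ⟨-, h1, h2⟩)
      · omega
      · symm
        apply Nat.div_eq_of_lt_le
        · rw [Nat.mul_comm]
          omega
        · rw [Nat.mul_comm]
          exact h2

theorem div_graph : SF {u : Fin 3 → ℕ | u 2 = u 0 / u 1} := by
  have hD := BiSF.nat_eq (X 1 : MvPolynomial (Fin 3) ℕ) 0
  have hC := BiSF.nat_eq (X 2 : MvPolynomial (Fin 3) ℕ) 0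
  have hE := BiSF.nat_lt (X 1 * X 2 : MvPolynomial (Fin 3) ℕ) (X 0 + 1)
  have hF := BiSF.nat_lt (X 0 : MvPolynomial (Fin 3) ℕ) (X 1 * (X 2 + 1))
  have h := ((hD.inter hC).union (hD.compl.inter (hE.inter hF))).1
  have e : ({a : Fin 3 → ℕ | eval a (X 1 : MvPolynomial (Fin 3) ℕ) = eval a 0} ∩
        {a : Fin 3 → ℕ | eval a (X 2 : MvPolynomial (Fin 3) ℕ) = eval a 0}) ∪
      ({a : Fin 3 → ℕ | eval a (X 1 : MvPolynomial (Fin 3) ℕ) = eval a 0}ᶜ ∩
        ({a : Fin 3 → ℕ | eval a (X 1 * X 2 : MvPolynomial (Fin 3) ℕ) < eval a (X 0 + 1)} ∩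
          {a : Fin 3 → ℕ | eval a (X 0 : MvPolynomial (Fin 3) ℕ) < eval a (X 1 * (X 2 + 1))})) =
      {u : Fin 3 → ℕ | u 2 = u 0 / u 1} := by
    ext u
    simp only [Set.mem_union, Set.mem_inter_iff, Set.mem_compl_iff, Set.mem_ofPred_eq, eval_X,
      map_add, map_mul, map_zero, map_one]
    exact (nat_div_char (u 0) (u 1) (u 2)).symm
  rwa [e] at h

/-! ### Closure of `GSF` under the operations -/

theorem GSF.var {α : Type} (i : α) : GSF (fun a : α → ℕ => a i) := by
  have h := (BiSF.nat_eq (X none : MvPolynomial (Option α) ℕ) (X (some i))).1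
  have e : {a : Option α → ℕ | eval a (X none : MvPolynomial (Option α) ℕ) = eval a (X (some i))} =
      Graph (fun a : α → ℕ => a i) := by
    ext v
    simp only [Set.mem_ofPred_eq, eval_X, mem_graph]
  unfold GSF
  rwa [e] at h

theorem GSF.const {α : Type} (c : ℕ) : GSF (fun _ : α → ℕ => c) := by
  have h := (BiSF.nat_eq (X none : MvPolynomial (Option α) ℕ) (C c)).1
  have e : {a : Option α → ℕ | eval a (X none : MvPolynomial (Option α) ℕ) = eval a (C c)} =
      Graph (fun _ : α → ℕ => c) := by
    ext v
    simp only [Set.mem_ofPred_eq, eval_X, eval_C, mem_graph]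
  unfold GSF
  rwa [e] at h

theorem GSF.binop {α : Type} {f g : (α → ℕ) → ℕ} (op : ℕ → ℕ → ℕ)
    (hop : SF {u : Fin 3 → ℕ | u 2 = op (u 0) (u 1)}) (hf : GSF f) (hg : GSF g) :
    GSF (fun a => op (f a) (g a)) := by
  -- coordinates: `none` is the value of `g`, `some none` the value of `f`,
  -- `some (some none)` the result, `some (some (some i))` the parameters
  have T1 := SF.comap_rename (α := Option (Option (Option α)))
    (fun o : Option α => o.elim (some none) (fun i => some (some (some i)))) hf
  have T2 := SF.comap_rename (α := Option (Option (Option α)))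
    (fun o : Option α => o.elim none (fun i => some (some (some i)))) hg
  have T3 := SF.comap_rename (α := Option (Option (Option α)))
    (fun k : Fin 3 => if k = 0 then some none else if k = 1 then none else some (some none)) hop
  have T : SF {v : Option (Option (Option α)) → ℕ |
      v (some none) = f (fun i => v (some (some (some i)))) ∧
      v none = g (fun i => v (some (some (some i)))) ∧
      v (some (some none)) = op (v (some none)) (v none)} := by
    have h := (T1.inter T2).inter T3
    have e : ({a : Option (Option (Option α)) → ℕ | (fun i : Option α =>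
          a (i.elim (some none) (fun i => some (some (some i))))) ∈ Graph f} ∩
        {a : Option (Option (Option α)) → ℕ | (fun i : Option α =>
          a (i.elim none (fun i => some (some (some i))))) ∈ Graph g}) ∩
        {a : Option (Option (Option α)) → ℕ | (fun k : Fin 3 =>
          a (if k = 0 then some none else if k = 1 then none else some (some none))) ∈
            {u : Fin 3 → ℕ | u 2 = op (u 0) (u 1)}} =
        {v : Option (Option (Option α)) → ℕ |
          v (some none) = f (fun i => v (some (some (some i)))) ∧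
          v none = g (fun i => v (some (some (some i)))) ∧
          v (some (some none)) = op (v (some none)) (v none)} := by
      ext v
      simp only [Set.mem_inter_iff, Set.mem_ofPred_eq, mem_graph, Option.elim]
      constructor
      · rintro ⟨⟨h1, h2⟩, h3⟩
        exact ⟨h1, h2, h3⟩
      · rintro ⟨h1, h2, h3⟩
        exact ⟨⟨h1, h2⟩, h3⟩
    rwa [e] at h
  have S1 : SF {v : Option (Option α) → ℕ |
      v none = f (fun i => v (some (some i))) ∧
      v (some none) = op (v none) (g (fun i => v (some (some i))))} := by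
    have h := SF.proj T (by
      intro a b b' hb hb'
      have e1 := hb.2.1
      have e2 := hb'.2.1
      simp only [ocons_none, ocons_some] at e1 e2
      rw [e1, e2])
    have e : {a : Option (Option α) → ℕ | ∃ b : ℕ, ocons a b ∈
          {v : Option (Option (Option α)) → ℕ |
            v (some none) = f (fun i => v (some (some (some i)))) ∧
            v none = g (fun i => v (some (some (some i)))) ∧
            v (some (some none)) = op (v (some none)) (v none)}} =
        {v : Option (Option α) → ℕ |
          v none = f (fun i => v (some (some i))) ∧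
          v (some none) = op (v none) (g (fun i => v (some (some i))))} := by
      ext v
      simp only [Set.mem_ofPred_eq, ocons_none, ocons_some]
      constructor
      · rintro ⟨b, h1, h2, h3⟩
        subst h2
        exact ⟨h1, h3⟩
      · rintro ⟨h1, h3⟩
        exact ⟨_, h1, rfl, h3⟩
    rwa [e] at h
  have S2 := SF.proj S1 (by
    intro a b b' hb hb'
    have e1 := hb.1
    have e2 := hb'.1
    simp only [ocons_none, ocons_some] at e1 e2
    rw [e1, e2])
  have e : {a : Option α → ℕ | ∃ b : ℕ, ocons a b ∈
        {v : Option (Option α) → ℕ |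
          v none = f (fun i => v (some (some i))) ∧
          v (some none) = op (v none) (g (fun i => v (some (some i))))}} =
      Graph (fun a => op (f a) (g a)) := by
    ext v
    simp only [Set.mem_ofPred_eq, ocons_none, ocons_some, mem_graph]
    constructor
    · rintro ⟨b, h1, h3⟩
      subst h1
      exact h3
    · intro h3
      exact ⟨_, rfl, h3⟩
  unfold GSF
  rwa [e] at S2

theorem GSF.mod {α : Type} {f g : (α → ℕ) → ℕ} (hf : GSF f) (hg : GSF g) :
    GSF (fun a => f a % g a) := by
  have h1 := GSF.binop (fun x y => x / y) div_graph hf hg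
  have h2 := GSF.binop (fun x y => x * y) mul_graph hg h1
  have h3 := GSF.binop (fun x y => x - y) tsub_graph hf h2
  have e : (fun a => f a % g a) = (fun a => f a - g a * (f a / g a)) := by
    funext a
    exact Nat.mod_eq_sub (f a) (g a)
  rw [e]
  exact h3

theorem ATerm.gsf {n : ℕ} (t : ATerm n) : GSF (fun a => t.val a) := by
  induction t with
  | var i => exact GSF.var i
  | const c => exact GSF.const c
  | add s t hs ht => exact GSF.binop (fun x y => x + y) add_graph hs ht
  | mul s t hs ht => exact GSF.binop (fun x y => x * y) mul_graph hs ht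
  | tsub s t hs ht => exact GSF.binop (fun x y => x - y) tsub_graph hs ht
  | div s t hs ht => exact GSF.binop (fun x y => x / y) div_graph hs ht
  | mod s t hs ht => exact GSF.mod hs ht

/-! ### Consequences for a function with a single-fold graph -/

/-- Sets cut out from the graph by a condition on the value. -/
theorem GSF.value_set {α : Type} {f : (α → ℕ) → ℕ} (hf : GSF f) {R : Set (Option α → ℕ)}
    (hR : SF R) : SF {a : α → ℕ | ocons a (f a) ∈ R} := by
  have h := SF.proj (SF.inter hf hR) (by
    intro a b b' hb hb'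
    have e1 := hb.1
    have e2 := hb'.1
    rw [mem_graph] at e1 e2
    simp only [ocons_none, ocons_some] at e1 e2
    rw [e1, e2])
  have e : {a : α → ℕ | ∃ b : ℕ, ocons a b ∈ Graph f ∩ R} = {a : α → ℕ | ocons a (f a) ∈ R} := by
    ext a
    simp only [Set.mem_ofPred_eq, Set.mem_inter_iff, mem_graph, ocons_none, ocons_some]
    constructor
    · rintro ⟨b, h1, h2⟩
      subst h1
      exact h2
    · intro h2
      exact ⟨_, rfl, h2⟩
  rwa [e] at h

theorem GSF.zero_set {α : Type} {f : (α → ℕ) → ℕ} (hf : GSF f) : SF {a : α → ℕ | f a = 0} := by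
  have hR := (BiSF.nat_eq (X none : MvPolynomial (Option α) ℕ) 0).1
  have h := hf.value_set hR
  simpa [ocons_none] using h

theorem GSF.nonzero_set {α : Type} {f : (α → ℕ) → ℕ} (hf : GSF f) :
    SF {a : α → ℕ | f a ≠ 0} := by
  have hR := (BiSF.nat_eq (X none : MvPolynomial (Option α) ℕ) 0).2
  have h := hf.value_set hR
  simpa [ocons_none] using h

/-- The graph and its complement, with the value at the last coordinate of `ℕ^(n+1)`. -/
theorem GSF.graph_fin {n : ℕ} {f : (Fin n → ℕ) → ℕ} (hf : GSF f) :
    SF {v : Fin (n + 1) → ℕ | v (Fin.last n) = f (fun i => v i.castSucc)} := by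
  have h := SF.comap_rename (α := Fin (n + 1))
    (fun o : Option (Fin n) => o.elim (Fin.last n) Fin.castSucc) hf
  exact h

theorem GSF.graph_compl_fin {n : ℕ} {f : (Fin n → ℕ) → ℕ} (hf : GSF f) :
    SF {v : Fin (n + 1) → ℕ | v (Fin.last n) ≠ f (fun i => v i.castSucc)} := by
  -- the function `v ↦ f (v ∘ castSucc)` of `n + 1` parameters has a single-fold graph
  have hg : GSF (fun v : Fin (n + 1) → ℕ => f (fun i => v i.castSucc)) := by
    have h := SF.comap_rename (α := Option (Fin (n + 1)))
      (fun o : Option (Fin n) => o.elim none (fun i => some i.castSucc)) hf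
    exact h
  have hR := (BiSF.nat_eq (X (some (Fin.last n)) : MvPolynomial (Option (Fin (n + 1))) ℕ)
    (X none)).2
  have h := hg.value_set hR
  simpa [ocons_none, ocons_some] using h

end Vale.Agent.Lib.P345
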