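import Vale.Agent.Lib.P345.Terms
import Vale.Agent.Lib.P345.TermGDefs

/-!
# P345: single-fold representations for arithmetic terms with gcd and integer square root

The graphs of the greatest common divisor and of the integer square root have single-fold
Diophantine representations; together with `Terms.lean` this gives the graph of every term of
`GTerm n`, its complement, the zero set and the complement of the zero set.
-/

namespace Vale.Agent.Lib.P345

open MvPolynomial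

/-- Arithmetic core of the gcd graph: for `x > 0`, `y > 0`, `z = gcd x y` iff there are
cofactors and a normalised Bezout relation. -/
theorem gcd_char_exists (x y : ℕ) (hx : 0 < x) (hy : 0 < y) :
    ∃ x' y' p q s : ℕ, x = Nat.gcd x y * x' ∧ y = Nat.gcd x y * y' ∧ p * x' = q * y' + 1 ∧
      p + s = y' := by
  have hz : 0 < Nat.gcd x y := Nat.gcd_pos_of_pos_left y hx
  obtain ⟨x', hx'⟩ := Nat.gcd_dvd_left x y
  obtain ⟨y', hy'⟩ := Nat.gcd_dvd_right x y
  have hx'pos : 0 < x' := by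
    rcases Nat.eq_zero_or_pos x' with h | h
    · rw [h, Nat.mul_zero] at hx'; omega
    · exact h
  have hy'pos : 0 < y' := by
    rcases Nat.eq_zero_or_pos y' with h | h
    · rw [h, Nat.mul_zero] at hy'; omega
    · exact h
  have hcop : Nat.Coprime x' y' := by
    have h := Nat.coprime_div_gcd_div_gcd hz
    have e1 : x / Nat.gcd x y = x' := Nat.div_eq_of_eq_mul_right hz hx'
    have e2 : y / Nat.gcd x y = y' := Nat.div_eq_of_eq_mul_right hz hy'
    rwa [e1, e2] at h
  rcases Nat.lt_or_ge 1 y' with h1 | h1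
  · obtain ⟨m, -, hm⟩ := Nat.exists_mul_mod_eq_one_of_coprime hcop h1
    refine ⟨x', y', m % y', x' * (m % y') / y', y' - m % y', hx', hy', ?_, ?_⟩
    · have h2 : x' * (m % y') % y' = 1 := by
        rw [Nat.mul_mod, Nat.mod_mod, ← Nat.mul_mod]; exact hm
      have h3 := Nat.div_add_mod (x' * (m % y')) y'
      rw [h2] at h3
      rw [Nat.mul_comm (m % y') x', Nat.mul_comm (x' * (m % y') / y') y']
      exact h3.symm
    · have := Nat.mod_lt m hy'pos
      omega
  · have hy1 : y' = 1 := by omega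
    refine ⟨x', y', 1, x' - 1, 0, hx', hy', ?_, ?_⟩
    · rw [hy1]; omega
    · rw [hy1]

theorem gcd_char_unique (x y z : ℕ) (hx : 0 < x) (x' y' p q s x'' y'' p' q' s' : ℕ)
    (h1 : x = z * x') (h2 : y = z * y') (h3 : p * x' = q * y' + 1) (h4 : p + s = y')
    (h1' : x = z * x'') (h2' : y = z * y'') (h3' : p' * x'' = q' * y'' + 1) (h4' : p' + s' = y'') :
    z = Nat.gcd x y ∧ x' = x'' ∧ y' = y'' ∧ p = p' ∧ q = q' ∧ s = s' := by
  have hz : 0 < z := by
    rcases Nat.eq_zero_or_pos z with h | h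
    · rw [h, Nat.zero_mul] at h1; omega
    · exact h
  have ex : x' = x'' := Nat.eq_of_mul_eq_mul_left hz (h1.symm.trans h1')
  have ey : y' = y'' := Nat.eq_of_mul_eq_mul_left hz (h2.symm.trans h2')
  subst ex ey
  have hcop : Nat.Coprime x' y' := by
    rw [Nat.coprime_iff_gcd_eq_one]
    have hd1 : Nat.gcd x' y' ∣ p * x' := Dvd.dvd.mul_left (Nat.gcd_dvd_left x' y') p
    have hd2 : Nat.gcd x' y' ∣ q * y' := Dvd.dvd.mul_left (Nat.gcd_dvd_right x' y') q
    rw [h3] at hd1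
    have hd3 : Nat.gcd x' y' ∣ 1 := (Nat.dvd_add_right hd2).1 hd1
    exact Nat.dvd_one.1 hd3
  have hzg : z = Nat.gcd x y := by
    rw [h1, h2, Nat.gcd_mul_left, hcop.gcd_eq_one, Nat.mul_one]
  have hp1 : 1 ≤ p := by
    rcases Nat.eq_zero_or_pos p with h | h
    · rw [h, Nat.zero_mul] at h3; omega
    · exact h
  have hp1' : 1 ≤ p' := by
    rcases Nat.eq_zero_or_pos p' with h | h
    · rw [h, Nat.zero_mul] at h3'; omega
    · exact h
  have hy'pos : 0 < y' := by omega
  have hmod : p * x' ≡ p' * x' [MOD y'] := by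
    rw [h3, h3']
    unfold Nat.ModEq
    rw [Nat.add_mod, Nat.mul_mod_left, Nat.add_mod (q' * y'), Nat.mul_mod_left]
  have hpp : p ≡ p' [MOD y'] :=
    Nat.ModEq.cancel_right_of_coprime (Nat.coprime_comm.1 hcop) hmod
  have ep : p = p' := by
    unfold Nat.ModEq at hpp
    rcases Nat.lt_or_ge p y' with ha | ha
    · rcases Nat.lt_or_ge p' y' with hb | hb
      · rwa [Nat.mod_eq_of_lt ha, Nat.mod_eq_of_lt hb] at hpp
      · have e : p' = y' := by omega
        rw [Nat.mod_eq_of_lt ha, e, Nat.mod_self] at hpp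
        omega
    · have e : p = y' := by omega
      rcases Nat.lt_or_ge p' y' with hb | hb
      · rw [e, Nat.mod_self, Nat.mod_eq_of_lt hb] at hpp
        omega
      · omega
  subst ep
  have eq' : q = q' := by
    have h5 : q * y' = q' * y' := by omega
    exact Nat.eq_of_mul_eq_mul_right hy'pos h5
  refine ⟨hzg, rfl, rfl, rfl, eq', by omega⟩


theorem gcd_pos_graph :
    SF {u : Fin 3 → ℕ | 0 < u 0 ∧ 0 < u 1 ∧ u 2 = Nat.gcd (u 0) (u 1)} := by
  have key : ∀ (a : Fin 3 → ℕ) (w : Fin 6 → ℕ),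
      (∀ i : Fin 5, eval (pt a w)
        ((![X (Sum.inl 0) - X (Sum.inl 2) * X (Sum.inr 0),
            X (Sum.inl 1) - X (Sum.inl 2) * X (Sum.inr 1),
            X (Sum.inr 2) * X (Sum.inr 0) - X (Sum.inr 3) * X (Sum.inr 1) - 1,
            X (Sum.inr 2) + X (Sum.inr 4) - X (Sum.inr 1),
            X (Sum.inl 0) - X (Sum.inr 5) - 1] :
              Fin 5 → MvPolynomial (Fin 3 ⊕ Fin 6) ℤ) i) = 0) ↔
      (a 0 = a 2 * w 0 ∧ a 1 = a 2 * w 1 ∧ w 2 * w 0 = w 3 * w 1 + 1 ∧ w 2 + w 4 = w 1 ∧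
        a 0 = w 5 + 1) := by
    intro a w
    simp only [Fin.forall_fin_succ, Matrix.cons_val_zero, Matrix.cons_val_succ,
      IsEmpty.forall_iff, and_true, map_sub, map_mul, map_add, map_one, eval_X, pt,
      Sum.elim_inl, Sum.elim_inr]
    constructor
    · rintro ⟨h0, h1, h2, h3, h4⟩
      refine ⟨?_, ?_, ?_, ?_, ?_⟩
      · have : ((a 0 : ℕ) : ℤ) = ((a 2 * w 0 : ℕ) : ℤ) := by push_cast; linarith
        exact_mod_cast this
      · have : ((a 1 : ℕ) : ℤ) = ((a 2 * w 1 : ℕ) : ℤ) := by push_cast; linarith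
        exact_mod_cast this
      · have : ((w 2 * w 0 : ℕ) : ℤ) = ((w 3 * w 1 + 1 : ℕ) : ℤ) := by push_cast; linarith
        exact_mod_cast this
      · have : ((w 2 + w 4 : ℕ) : ℤ) = ((w 1 : ℕ) : ℤ) := by push_cast; linarith
        exact_mod_cast this
      · have : ((a 0 : ℕ) : ℤ) = ((w 5 + 1 : ℕ) : ℤ) := by push_cast; linarith
        exact_mod_cast this
    · rintro ⟨h0, h1, h2, h3, h4⟩
      have h0' : ((a 0 : ℕ) : ℤ) = (a 2 : ℤ) * (w 0 : ℤ) := by exact_mod_cast h0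
      have h1' : ((a 1 : ℕ) : ℤ) = (a 2 : ℤ) * (w 1 : ℤ) := by exact_mod_cast h1
      have h2' : (w 2 : ℤ) * (w 0 : ℤ) = (w 3 : ℤ) * (w 1 : ℤ) + 1 := by exact_mod_cast h2
      have h3' : (w 2 : ℤ) + (w 4 : ℤ) = (w 1 : ℤ) := by exact_mod_cast h3
      have h4' : ((a 0 : ℕ) : ℤ) = (w 5 : ℤ) + 1 := by exact_mod_cast h4
      refine ⟨by linarith, by linarith, by linarith, by linarith, by linarith⟩
  refine SF.of_system (Fin 6) (Fin 5)
    (![X (Sum.inl 0) - X (Sum.inl 2) * X (Sum.inr 0),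
        X (Sum.inl 1) - X (Sum.inl 2) * X (Sum.inr 1),
        X (Sum.inr 2) * X (Sum.inr 0) - X (Sum.inr 3) * X (Sum.inr 1) - 1,
        X (Sum.inr 2) + X (Sum.inr 4) - X (Sum.inr 1),
        X (Sum.inl 0) - X (Sum.inr 5) - 1] :
          Fin 5 → MvPolynomial (Fin 3 ⊕ Fin 6) ℤ) ?_ ?_
  · intro a
    simp only [key, Set.mem_ofPred_eq]
    constructor
    · rintro ⟨hx, hy, hz⟩
      obtain ⟨x', y', p, q, s, e1, e2, e3, e4⟩ := gcd_char_exists (a 0) (a 1) hx hy
      refine ⟨![x', y', p, q, s, a 0 - 1], ?_⟩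
      simp only [Matrix.cons_val_zero, Matrix.cons_val_one, Matrix.cons_val]
      rw [hz]
      refine ⟨e1, e2, e3, e4, by omega⟩
    · rintro ⟨w, e1, e2, e3, e4, e5⟩
      have hx : 0 < a 0 := by omega
      have hz := (gcd_char_unique (a 0) (a 1) (a 2) hx _ _ _ _ _ _ _ _ _ _
        e1 e2 e3 e4 e1 e2 e3 e4).1
      refine ⟨hx, ?_, hz⟩
      have hzpos : 0 < a 2 := by
        rw [hz]; exact Nat.gcd_pos_of_pos_left _ hx
      have hw2 : 0 < w 2 := by
        rcases Nat.eq_zero_or_pos (w 2) with h | h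
        · rw [h, Nat.zero_mul] at e3; omega
        · exact h
      have hw1 : 0 < w 1 := by omega
      rw [e2]
      exact Nat.mul_pos hzpos hw1
  · intro a w w' hw hw'
    rw [key] at hw hw'
    obtain ⟨e1, e2, e3, e4, e5⟩ := hw
    obtain ⟨e1', e2', e3', e4', e5'⟩ := hw'
    have hx : 0 < a 0 := by omega
    obtain ⟨-, u0, u1, u2, u3, u4⟩ := gcd_char_unique (a 0) (a 1) (a 2) hx _ _ _ _ _ _ _ _ _ _
      e1 e2 e3 e4 e1' e2' e3' e4'
    have u5 : w 5 = w' 5 := by omega
    funext i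
    fin_cases i
    · exact u0
    · exact u1
    · exact u2
    · exact u3
    · exact u4
    · exact u5

theorem gcd_graph : SF {u : Fin 3 → ℕ | u 2 = Nat.gcd (u 0) (u 1)} := by
  have hx0 := BiSF.nat_eq (X 0 : MvPolynomial (Fin 3) ℕ) 0
  have hy0 := BiSF.nat_eq (X 1 : MvPolynomial (Fin 3) ℕ) 0
  have hzy := BiSF.nat_eq (X 2 : MvPolynomial (Fin 3) ℕ) (X 1)
  have hzx := BiSF.nat_eq (X 2 : MvPolynomial (Fin 3) ℕ) (X 0)
  have hA := (hx0.inter hzy).1
  have hB := (hx0.compl.inter (hy0.inter hzx)).1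
  have h := (hA.disjoint_union hB (by
    rw [Set.disjoint_left]
    intro u hu hv
    exact hv.1 hu.1)).disjoint_union gcd_pos_graph (by
    rw [Set.disjoint_left]
    intro u hu hv
    simp only [Set.mem_union, Set.mem_inter_iff, Set.mem_compl_iff, Set.mem_ofPred_eq, eval_X,
      map_zero] at hu hv
    omega)
  have e : (({a : Fin 3 → ℕ | eval a (X 0 : MvPolynomial (Fin 3) ℕ) = eval a 0} ∩
        {a : Fin 3 → ℕ | eval a (X 2 : MvPolynomial (Fin 3) ℕ) = eval a (X 1)}) ∪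
      ({a : Fin 3 → ℕ | eval a (X 0 : MvPolynomial (Fin 3) ℕ) = eval a 0}ᶜ ∩
        ({a : Fin 3 → ℕ | eval a (X 1 : MvPolynomial (Fin 3) ℕ) = eval a 0} ∩
          {a : Fin 3 → ℕ | eval a (X 2 : MvPolynomial (Fin 3) ℕ) = eval a (X 0)}))) ∪
      {u : Fin 3 → ℕ | 0 < u 0 ∧ 0 < u 1 ∧ u 2 = Nat.gcd (u 0) (u 1)} =
      {u : Fin 3 → ℕ | u 2 = Nat.gcd (u 0) (u 1)} := by
    ext u
    simp only [Set.mem_union, Set.mem_inter_iff, Set.mem_compl_iff, Set.mem_ofPred_eq, eval_X,
      map_zero]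
    rcases Nat.eq_zero_or_pos (u 0) with h0 | h0
    · rw [h0, Nat.gcd_zero_left]
      constructor
      · rintro ((⟨-, h⟩ | ⟨h, -⟩) | ⟨h, -⟩)
        · exact h
        · exact absurd rfl h
        · omega
      · intro h
        exact Or.inl (Or.inl ⟨rfl, h⟩)
    · rcases Nat.eq_zero_or_pos (u 1) with h1 | h1
      · rw [h1, Nat.gcd_zero_right]
        constructor
        · rintro ((⟨h, -⟩ | ⟨-, -, h⟩) | ⟨-, h, -⟩)
          · omega
          · exact h
          · omega
        · intro h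
          exact Or.inl (Or.inr ⟨by omega, rfl, h⟩)
      · constructor
        · rintro ((⟨h, -⟩ | ⟨-, h, -⟩) | ⟨-, -, h⟩)
          · omega
          · omega
          · exact h
        · intro h
          exact Or.inr ⟨h0, h1, h⟩
  rwa [e] at h

theorem sqrt_graph : SF {u : Fin 3 → ℕ | u 2 = Nat.sqrt (u 0)} := by
  have hA := BiSF.nat_lt (X 2 * X 2 : MvPolynomial (Fin 3) ℕ) (X 0 + 1)
  have hB := BiSF.nat_lt (X 0 : MvPolynomial (Fin 3) ℕ) ((X 2 + 1) * (X 2 + 1))
  have h := (hA.inter hB).1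
  have e : {a : Fin 3 → ℕ | eval a (X 2 * X 2 : MvPolynomial (Fin 3) ℕ) < eval a (X 0 + 1)} ∩
      {a : Fin 3 → ℕ | eval a (X 0 : MvPolynomial (Fin 3) ℕ) < eval a ((X 2 + 1) * (X 2 + 1))} =
      {u : Fin 3 → ℕ | u 2 = Nat.sqrt (u 0)} := by
    ext u
    simp only [Set.mem_inter_iff, Set.mem_ofPred_eq, eval_X, map_add, map_mul, map_one]
    rw [Nat.eq_sqrt]
    constructor
    · rintro ⟨h1, h2⟩
      exact ⟨by omega, h2⟩
    · rintro ⟨h1, h2⟩
      exact ⟨by omega, h2⟩
  rwa [e] at h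

theorem GTerm.gsf {n : ℕ} (t : GTerm n) : GSF (fun a => t.val a) := by
  induction t with
  | var i => exact GSF.var i
  | const c => exact GSF.const c
  | add s t hs ht => exact GSF.binop (fun x y => x + y) add_graph hs ht
  | mul s t hs ht => exact GSF.binop (fun x y => x * y) mul_graph hs ht
  | tsub s t hs ht => exact GSF.binop (fun x y => x - y) tsub_graph hs ht
  | div s t hs ht => exact GSF.binop (fun x y => x / y) div_graph hs ht
  | mod s t hs ht => exact GSF.mod hs ht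
  | gcd s t hs ht => exact GSF.binop (fun x y => Nat.gcd x y) gcd_graph hs ht
  | sqrt s hs => exact GSF.binop (fun x _ => Nat.sqrt x) sqrt_graph hs hs

end Vale.Agent.Lib.P345
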